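import Crest.Agent.N233.Cd.Gen
import Crest.Agent.N233.Rr.Fr
import Crest.Agent.N255.Da.Graph

/-!
# Row 233 (helper51): the action on the subdivision satisfies `Rr.Fr`
-/

set_option autoImplicit false

namespace Crest.Agent.N233.Cd

open N255.Pt N233.PS N233.Hi Set

theorem fr_of {ι I Tor K F : Type} [Group F] [Finite ι] [Finite I] [Finite Tor] (D : Dt ι I Tor K)
    {X : Set (St ι I Tor) → Prop} [DecidableEq (PV X)] (hX : ∀ A, X A ↔ D.Gt.IsClique A)
    {j : F →* FreeGroup ι} (hj : Function.Injective j) [j.range.FiniteIndex]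
    {ρ : F →* (ps X ≃g ps X)} (hρ : ∀ f a, car (ρ f a) = (j f • ·) '' car a) (H : Rr.Hy (ps X))
    (e : Fin 10 → I) (he : Function.Injective e) (o : I)
    (h1 : ∀ i i', D.col (.inl (e i)) = D.col (.inl (e i')))
    (h2 : ∀ i, D.col (.inl o) ≠ D.col (.inl (e i))) : Rr.Fr ρ := by
  have fa : ∀ {c i i'} {f : F}, (cn D hX (e i) = c ∨ (ps X).Adj c (cn D hX (e i))) →
      (ρ f (cn D hX (e i')) = c ∨ (ps X).Adj c (ρ f (cn D hX (e i')))) → i = i' :=
    fun h h' => he (far D hX hρ (h1 _ _) h h')
  have one : ∀ a, ρ 1 a = a := fun a => by rw [map_one]; rfl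
  refine ⟨H, fun a σ hσ => ?_, fun f h => hj ?_, fun f s => free D hX hj hρ, fun f a h => ?_,
    fun f a b h h' => star_inj D hX hj hρ (.inr h) (.inr h'), cof D hX hρ, ?_⟩
  · by_contra n
    have k : ∀ i, (cn D hX (e i) = a ∨ (ps X).Adj a (cn D hX (e i))) ∨ cn D hX (e i) ∈ σ := fun i => by
      by_contra m
      simp only [not_or] at m
      exact n ⟨_, m.1.1, m.1.2, m.2⟩
    have k1 : ∀ i i', cn D hX (e i) ∈ σ → cn D hX (e i') ∈ σ → i = i' := fun i i' p q =>
      fa (f := 1) (.inl rfl) (by
        rw [one]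
        exact (eq_or_ne _ _).imp_right fun m => hσ p q m.symm)
    have k2 : ∀ i i', (cn D hX (e i) = a ∨ (ps X).Adj a (cn D hX (e i))) →
        (cn D hX (e i') = a ∨ (ps X).Adj a (cn D hX (e i'))) → i = i' := fun i i' p q =>
      fa (f := 1) p (by rwa [one])
    rcases k 0 with p | p <;> rcases k 1 with q | q <;> rcases k 2 with r | r
    exacts [absurd (k2 _ _ p q) (by decide), absurd (k2 _ _ p q) (by decide),
      absurd (k2 _ _ p r) (by decide), absurd (k1 _ _ q r) (by decide), absurd (k2 _ _ q r) (by decide),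
      absurd (k1 _ _ p r) (by decide), absurd (k1 _ _ p q) (by decide), absurd (k1 _ _ p q) (by decide)]
  · rw [map_one, ← pow_eq_one_iff_left two_ne_zero, sq, ← map_mul, h, map_one]
  · rw [star_inj D hX hj hρ (.inl rfl) (.inr h), one] at h
    exact h.ne rfl
  · obtain ⟨σ, hσ, m⟩ := H.ext {cn D hX o} (by simp)
    have mo : cn D hX o ∈ σ := m (Finset.mem_singleton_self _)
    let t : Fin 4 → PV X := fun i => (σ.equivFinOfCardEq hσ.2).symm i
    have ti : Function.Injective t := Subtype.val_injective.comp (Equiv.injective _)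
    have tm : ∀ i, t i ∈ σ := fun i => Subtype.property _
    have st : ∀ {a b}, a ∈ σ → b ∈ σ → a = b ∨ (ps X).Adj b a := fun p q =>
      (eq_or_ne _ _).imp_right fun m => hσ.1 q p m.symm
    have ne : ∀ (f : F) i i', ρ f (t i) ≠ cn D hX (e i') := fun f i i' =>
      ne_cn D hX hρ (h2 i') (st mo (tm i))
    refine ⟨fun i => Fin.addCases (m := 4) (n := 10) t (fun i => cn D hX (e i)) i, fun i i' f => ?_,
      fun i i' p q n => ?_⟩
    · induction i using Fin.addCases (m := 4) (n := 10) with
      | left i =>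
        induction i' using Fin.addCases (m := 4) (n := 10) with
        | left i' =>
          simp only [Fin.addCases_left]
          intro k
          rw [star_inj D hX hj hρ (st (tm i) (tm i')) (.inl k), one] at k
          rw [ti k]
        | right i' =>
          simp only [Fin.addCases_left, Fin.addCases_right]
          exact fun k => absurd k (ne f i i')
      | right i =>
        induction i' using Fin.addCases (m := 4) (n := 10) with
        | left i' =>
          simp only [Fin.addCases_left, Fin.addCases_right]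
          refine fun k => absurd ?_ (ne f⁻¹ i' i)
          rw [← k, map_inv]
          exact (ρ f).symm_apply_apply _
        | right i' =>
          simp only [Fin.addCases_right]
          exact fun k => by rw [fa (.inl rfl) (.inl k)]
    · obtain ⟨i, rfl⟩ : ∃ k : Fin 4, i = Fin.castAdd 10 k := ⟨⟨i, p⟩, rfl⟩
      obtain ⟨i', rfl⟩ : ∃ k : Fin 4, i' = Fin.castAdd 10 k := ⟨⟨i', q⟩, rfl⟩
      simp only [Fin.addCases_left]
      exact hσ.1 (tm i) (tm i') fun k => n (by rw [ti k])

/-- the instance for the data of row 255 -/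
theorem fr_D {F : Type} [Group F] {X : Set (St (Fin 3) (Fin 112) (Fin 16)) → Prop} [DecidableEq (PV X)]
    (hX : ∀ A, X A ↔ N255.Da.D.Gt.IsClique A) {j : F →* FreeGroup (Fin 3)}
    (hj : Function.Injective j) [j.range.FiniteIndex] {ρ : F →* (ps X ≃g ps X)}
    (hρ : ∀ f a, car (ρ f a) = (j f • ·) '' car a) (H : Rr.Hy (ps X)) : Rr.Fr ρ :=
  fr_of N255.Da.D hX hj hρ H ![1, 3, 6, 8, 13, 15, 17, 19, 22, 24] (by decide) 0
    (by decide +kernel) (by decide +kernel)

/-- restriction to a subgroup of finite index -/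
theorem fr_res {X : Set (St (Fin 3) (Fin 112) (Fin 16)) → Prop} [DecidableEq (PV X)]
    (hX : ∀ A, X A ↔ N255.Da.D.Gt.IsClique A) (ρ : FreeGroup (Fin 3) →* (ps X ≃g ps X))
    (hρ : ∀ f a, car (ρ f a) = (f • ·) '' car a) (E : Subgroup (FreeGroup (Fin 3))) [E.FiniteIndex]
    (H : Rr.Hy (ps X)) : Rr.Fr (ρ.comp E.subtype) :=
  have : E.subtype.range.FiniteIndex := by rwa [E.range_subtype]
  fr_D hX E.subtype_injective (fun f => hρ f) H

end Crest.Agent.N233.Cd
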