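import Crest.Agent.N233.Hi.Hy

/-!
# Row 233 (helper51): closed stars of the subdivision inject into the quotient; far corners
-/

set_option autoImplicit false

namespace Crest.Agent.N233.Cd

open N255.Pt N233.PS N233.Hi Set

variable {ι I Tor K F : Type} [Group F] (D : Dt ι I Tor K) {X : Set (St ι I Tor) → Prop}
  (hX : ∀ A, X A ↔ D.Gt.IsClique A) {j : F →* FreeGroup ι} (hj : Function.Injective j)
  {ρ : F →* (ps X ≃g ps X)} (hρ : ∀ f a, car (ρ f a) = (j f • ·) '' car a)
include hX

theorem eq_of_cl (c : PV X) {v w : St ι I Tor} (hv : v ∈ car c) (hw : w ∈ car c) (e : D.cl v = D.cl w) :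
    v = w := by_contra fun n => D.cl_ne ((hX _).1 (car_face c) hv hw n) e

theorem nest {c a : PV X} (h : a = c ∨ (ps X).Adj c a) : car a ⊆ car c ∨ car c ⊆ car a := by
  rcases h with rfl | h
  exacts [.inl subset_rfl, (car_nest (cxD D hX) h).symm]

theorem mem_of_single {c a : PV X} {v : St ι I Tor} (h : a = c ∨ (ps X).Adj c a) (e : car a = {v}) :
    v ∈ car c := by
  rcases nest D hX h with k | k
  · exact k (e ▸ rfl)
  · obtain ⟨w, hw⟩ := car_nonempty c
    rwa [← show w = v from (e ▸ k hw : w ∈ ({v} : Set _))]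

include hj hρ

/-- closed stars inject into the quotient -/
theorem star_inj {c a : PV X} {f : F} (h : a = c ∨ (ps X).Adj c a)
    (h' : ρ f a = c ∨ (ps X).Adj c (ρ f a)) : f = 1 := by
  have key : ∀ (b : PV X) v, v ∈ car b → j f • v ∈ car b → f = 1 := fun b v h1 h2 =>
    hj ((L.free _ _ (eq_of_cl D hX b h2 h1 rfl)).trans (map_one j).symm)
  obtain ⟨v, hv⟩ := car_nonempty a
  obtain ⟨w, hw⟩ := car_nonempty c
  have m : j f • v ∈ car (ρ f a) := hρ f a ▸ ⟨v, hv, rfl⟩
  rcases nest D hX h with k | k <;> rcases nest D hX h' with k' | k'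
  · exact key c v (k hv) (k' m)
  · obtain ⟨u, hu, e⟩ := hρ f a ▸ k' (k hv)
    exact key a u hu (by rwa [show j f • u = v from e])
  · exact key a v hv (k (k' m))
  · obtain ⟨u, hu, e⟩ := hρ f a ▸ k' hw
    exact key a u hu (by rw [show j f • u = w from e]; exact k hw)

theorem free {a : PV X} {f : F} (h : ρ f a = a) : f = 1 := star_inj D hX hj hρ (.inl rfl) (.inl h)

omit hj in
theorem cof [Finite ι] [Finite I] [Finite Tor] [j.range.FiniteIndex] :
    ∃ B : Set (PV X), B.Finite ∧ ∀ s, ∃ f, ρ f s ∈ B := by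
  obtain ⟨B, hB, h⟩ := actN_cof j
  refine ⟨_, hB.biUnion fun t _ => ts_finite (X := X) t, fun s => ?_⟩
  obtain ⟨v, hv⟩ := D.helly ((hX _).1 (car_face s))
  obtain ⟨f, hf⟩ := h v
  exact ⟨f, mem_biUnion hf (ts_smul j ρ hρ f s v fun u hu => hv hu)⟩

omit hj hρ in
theorem face1 (v : St ι I Tor) : X {v} := (hX _).2 (pairwise_singleton _ _)

omit hj hρ in
/-- the corner over an interior vertex of the base copy -/
noncomputable def cn (a : I) : PV X := corner ⟨1, .inl a⟩ (face1 D hX _)

omit hj in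
/-- corners of one colour are far apart in the quotient -/
theorem far {c : PV X} {a b : I} {f : F} (e : D.col (.inl a) = D.col (.inl b))
    (h : cn D hX a = c ∨ (ps X).Adj c (cn D hX a))
    (h' : ρ f (cn D hX b) = c ∨ (ps X).Adj c (ρ f (cn D hX b))) : a = b := by
  have h1 := mem_of_single D hX h (car_corner _ _)
  have h2 := mem_of_single D hX h' (by rw [hρ, cn, car_corner, image_singleton])
  simpa using congrArg L.k (eq_of_cl D hX c h1 h2 e)

omit hj in
/-- the star of a corner contains no corner of another colour, up to the group -/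
theorem ne_cn {t : PV X} {a b : I} {f : F} (e : D.col (.inl a) ≠ D.col (.inl b))
    (h : cn D hX a = t ∨ (ps X).Adj t (cn D hX a)) : ρ f t ≠ cn D hX b := fun k => by
  have h1 := mem_of_single D hX h (car_corner _ _)
  have h2 : j f • (⟨1, .inl a⟩ : St ι I Tor) ∈ car (ρ f t) := hρ f t ▸ ⟨_, h1, rfl⟩
  rw [k, cn, car_corner] at h2
  exact e (congrArg D.cl h2)

end Crest.Agent.N233.Cd
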